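import Vale.Agent.P230.Main
import Vale.Agent.P230.Rogers

namespace Vale.Agent.Results.P230.NLogNOrder

open Filter Vale.Agent.P230

theorem result :
    (∃ c C : ℝ, 0 < c ∧ 0 < C ∧ ∀ᶠ n : ℕ in atTop,
      (ENNReal.ofReal (c * n * Real.log n) ≤ ThetaT n ∧
        ThetaT n ≤ ENNReal.ofReal (C * n * Real.log n)) ∧
      ENNReal.ofReal (c * n * Real.log n) ≤ ThetaL n ∧
      ∃ K : Set (Euc n), IsConvexBody K ∧
        ENNReal.ofReal (c * n * Real.log n) ≤ thetaT K ∧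
        thetaT K ≤ thetaL K ∧ thetaL K < ⊤) ∧
    ¬ ∃ C : ℝ, ∀ (n : ℕ) (K : Set (Euc n)), IsConvexBody K →
      thetaT K ≤ ENNReal.ofReal (C * n) := by
  refine ⟨⟨1 / 4000000000, 168, by norm_num, by norm_num, ?_⟩, not_linear⟩
  filter_upwards [lower_eventually, eventually_ge_atTop 2] with n ⟨K, hK, h1, h2, h3⟩ hn
  exact ⟨⟨le_iSup₂_of_le K hK h1, ThetaT_le hn⟩, le_iSup₂_of_le K hK (h1.trans h2),
    K, hK, h1, h2, h3⟩

end Vale.Agent.Results.P230.NLogNOrder
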